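import Vale.Agent.P144Y.Defs
import Vale.Agent.P144S.K.Blk
import Vale.Agent.P144S.W.Basic

/-!
The elementary properties of the disorder correlations on the graph of the cells of an arbitrary
finite set, and Kramers-Wannier duality.
-/

namespace Vale.Agent.P144Y.K

open Finset Vale.Agent.P144 Vale.Agent.P144Z.St
open Vale.Agent.P144.AL (cutS cut1 cutS_cons spn_zero NG_congr chiM_zero)
open Vale.Agent.P144.H436 (Zf eP eQ EE EE_mono EE_ends NG_eq_Zf prod_dep sum_powerset_inter Mz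
  dis_mono dis_gks pm_elim Zf_tc_pos' Mz_union)
open Vale.Agent.P144S.K (sd side_mem QQ_box exists_fb sP_faces)
open Vale.Agent.P144S.W (QQ_pos QQ_dis_pair QQ_V0 QQ_H0)

/-- The sides of the cells. -/
noncomputable def ES (P : Finset Site) : Finset (Site ⊕ Site) :=
  (EE (Vx P)).filter fun e => fP e ∈ P ∨ fQ e ∈ P

theorem mem_ES {P : Finset Site} {e : Site ⊕ Site} : e ∈ ES P ↔ fP e ∈ P ∨ fQ e ∈ P :=
  mem_filter.trans ⟨fun h => h.2, fun h => ⟨side_mem h, h⟩⟩

theorem ES_sub (P : Finset Site) : ES P ⊆ EE (Vx P) := filter_subset _ _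

theorem ES_mono {P Q : Finset Site} (h : P ⊆ Q) : ES P ⊆ ES Q := fun _ he =>
  mem_ES.2 ((mem_ES.1 he).imp (@h _) (@h _))

theorem Vx_mono {P Q : Finset Site} (h : P ⊆ Q) : Vx P ⊆ Vx Q :=
  biUnion_subset_biUnion_of_subset_left _ h

theorem QQ_eq (P : Finset Site) (R : Multiset Site) : QQ P R 0 =
    Zf (Vx P) eP eQ (ES P) 0 fun e => tc * Sum.elim (cutS R) (1 : Site → ℝ) e := by
  have e1 : (fun e => tc * Sum.elim (fun x => ih P x * cutS R x) (iv P) e) =
      fun e => tc * (sd P e * Sum.elim (cutS R) (1 : Site → ℝ) e) := by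
    funext e
    rcases e with x | x
    · rfl
    · simp only [Sum.elim_inr, Pi.one_apply, mul_one]
      rfl
  unfold QQ
  rw [NG_eq_Zf, e1]
  unfold Zf
  refine sum_congr rfl fun T _ => ?_
  congr 1
  rw [← prod_subset (ES_sub P) fun e _ he => ?_]
  · refine prod_congr rfl fun e he => ?_
    have : sd P e = 1 := if_pos (mem_ES.1 he)
    simp only [this, one_mul]
  · have : sd P e = 0 := if_neg fun h => he (mem_ES.2 h)
    simp [this]

theorem MM_eq {P Λ : Finset Site} (h : Vx P ⊆ Λ) (R : Multiset Site) :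
    MM P R = Mz Λ (ES P) (Sum.elim (cutS R) 1) := by
  have key : ∀ u : Site ⊕ Site → ℝ, Zf Λ eP eQ (ES P) 0 u
      = 2 ^ (Λ \ Vx P).card * Zf (Vx P) eP eQ (ES P) 0 u := by
    intro u
    unfold Zf
    simp only [spn_zero, one_mul]
    exact sum_powerset_inter h fun T => prod_dep (ES_sub P) u T
  unfold Mz MM
  rw [key, key, mul_div_mul_left _ _ (by positivity), QQ_eq, QQ_eq]
  congr 2
  funext e
  rcases e with x | x
  · simp [AL.cutS_zero]
  · simp

theorem Mz_mono {Λ : Finset Site} {E E' : Finset (Site ⊕ Site)} (h : E ⊆ E') (h' : E' ⊆ EE Λ)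
    (R : Multiset Site) : Mz Λ E' (Sum.elim (cutS R) 1) ≤ Mz Λ E (Sum.elim (cutS R) 1) :=
  dis_mono h (fun e he => EE_ends e (h' he)) (fun _ => tc_pos.le) (fun _ => tc_lt_one) (pm_elim R)

theorem MM_anti {P Q : Finset Site} (h : P ⊆ Q) (R : Multiset Site) : MM Q R ≤ MM P R := by
  rw [MM_eq (Vx_mono h), MM_eq Subset.rfl]
  exact Mz_mono (ES_mono h) (ES_sub Q) R

theorem MM_le (P : Finset Site) (R : Multiset Site) : MM P R ≤ 1 := by
  rw [MM_eq Subset.rfl]
  refine (Mz_mono (empty_subset _) (ES_sub P) R).trans (le_of_eq ?_)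
  have := (Zf_tc_pos' (Vx P) ∅).ne'
  unfold Mz
  rw [div_eq_one_iff_eq this]
  unfold Zf
  simp

theorem MM_gks (P : Finset Site) (R R' : Multiset Site) : MM P R * MM P R' ≤ MM P (R + R') := by
  have h := dis_gks (Λ := Vx P) (p := eP) (q := eQ) (E := ES P)
    (fun e he => EE_ends e (ES_sub P he)) (w := fun _ => tc)
    (fun _ => tc_pos.le) (fun _ => tc_lt_one.le) (pm_elim R) (pm_elim R')
  rw [MM_eq Subset.rfl, MM_eq Subset.rfl, MM_eq Subset.rfl]
  unfold Mz
  have hZ := Zf_tc_pos' (Vx P) (ES P)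
  rw [div_mul_div_comm, div_le_div_iff₀ (by positivity) hZ]
  have e : (fun e => tc * (Sum.elim (cutS R) (1 : Site → ℝ) e *
      Sum.elim (cutS R') (1 : Site → ℝ) e)) =
      fun e => tc * Sum.elim (cutS (R + R')) (1 : Site → ℝ) e := by
    funext e
    congr 1
    rcases e with x | x
    · simp only [Sum.elim_inl]
      unfold cutS
      rw [Multiset.map_add, Multiset.prod_add]
    · simp
  rw [e] at h
  exact (mul_le_mul_of_nonneg_right h hZ.le).trans (le_of_eq (by ring))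

theorem MM_two {P P₁ P₂ : Finset Site} (h1 : P₁ ⊆ P) (h2 : P₂ ⊆ P)
    (hd : Disjoint (Vx P₁) (Vx P₂)) (R : Multiset Site) : MM P R ≤ MM P₁ R * MM P₂ R := by
  rw [MM_eq Subset.rfl, MM_eq (Vx_mono h1), MM_eq (Vx_mono h2),
    ← Mz_union hd (ES_sub P₁) (ES_sub P₂)]
  exact Mz_mono (union_subset (ES_mono h1) (ES_mono h2)) (ES_sub P) R

theorem nbr4 {x y : Site} (e : |x.1 - y.1| + |x.2 - y.2| = 1) : y = (x.1 + 1, x.2) ∨
    x = (y.1 + 1, y.2) ∨ y = (x.1, x.2 + 1) ∨ x = (y.1, y.2 + 1) := by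
  simp only [Prod.ext_iff]
  rcases abs_cases (x.1 - y.1) with h3 | h3 <;> rcases abs_cases (x.2 - y.2) with h4 | h4 <;> lia

theorem QQ_nbr {P : Finset Site} {x y : Site} (hx : x ∉ P) (hy : y ∉ P)
    (e : |x.1 - y.1| + |x.2 - y.2| = 1) (R : Multiset Site) :
    QQ P (x ::ₘ R) 0 = QQ P (y ::ₘ R) 0 := by
  rcases nbr4 e with rfl | rfl | rfl | rfl
  · have := QQ_H0 (i := x.1) (j := x.2) hx hy R (A := 0) (by simp)
    rwa [chiM_zero, one_mul] at this
  · have := QQ_H0 (i := y.1) (j := y.2) hy hx R (A := 0) (by simp)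
    rw [chiM_zero, one_mul] at this
    exact this.symm
  · exact QQ_V0 (i := x.1) (j := x.2) hx hy R 0
  · exact (QQ_V0 (i := y.1) (j := y.2) hy hx R 0).symm

theorem QQ_con {P : Finset Site} {x y : Site} (hx : x ∉ P) (hc : Cn P x y) (R : Multiset Site) :
    y ∉ P ∧ QQ P (x ::ₘ R) 0 = QQ P (y ::ₘ R) 0 := by
  induction hc with
  | refl => exact ⟨hx, rfl⟩
  | tail _ h2 ih => exact ⟨h2.1, ih.2.trans (QQ_nbr ih.1 h2.1 h2.2 R)⟩

theorem QQ_far {P : Finset Site} {x : Site} (h : ∀ y ∈ P, y.1 ≠ x.1) (R A : Multiset Site) :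
    QQ P (x ::ₘ R) A = QQ P R A := by
  unfold QQ
  refine NG_congr (fun y _ => ?_) (fun _ _ => rfl) A
  rw [cutS_cons]
  by_cases hy : y ∈ P ∨ ((y.1, y.2 - 1) : Site) ∈ P
  · have : cut1 x y = 1 := if_neg fun b => hy.elim (fun c => h _ c b.1) fun c => h _ c b.1
    rw [this, one_mul]
  · have : ih P y = 0 := if_neg hy
    rw [this, zero_mul, zero_mul]

/-- The elementary properties of the correlations. -/
theorem smm : SMM where
  pos := P144S.W.MM_pos
  le := MM_le
  gks := MM_gks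
  anti := fun _ _ R h => MM_anti h R
  two := fun _ _ _ R h1 h2 hd => MM_two h1 h2 hd R
  dbl := fun P x R => by unfold MM; rw [QQ_dis_pair]
  con := fun P x y R hx hc => by unfold MM; rw [(QQ_con hx hc R).2]
  far := fun P x R h => by unfold MM; rw [QQ_far h]
  blk := fun P R hB => by
    unfold MM H436.MM
    rw [(P144S.K.blk P hB).1, (P144S.K.blk P hB).1]
  ind := fun P R => by
    rw [MM_eq Subset.rfl, H436.MM_eq]
    exact Mz_mono (ES_sub P) Subset.rfl R

/-- A set of faces whose boundary consists of sides of cells is a union of components outside. -/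
theorem mem_of_sides {P S : Finset Site} {M : ℕ} (hS : S ⊆ fb M)
    (h : ∀ e ∈ bd M S, fP e ∈ P ∨ fQ e ∈ P) {v w : Site} (hv : v ∈ S) (hv' : v ∉ P)
    (hw : Cn P v w) : w ∈ S ∧ w ∉ P := by
  induction hw with
  | refl => exact ⟨hv, hv'⟩
  | @tail x y _ st ih =>
    refine ⟨?_, st.1⟩
    by_contra hy
    obtain ⟨a, b⟩ := x
    obtain ⟨c, d⟩ := y
    have hx := mem_fb.1 (hS ih.1)
    have s2 := st.2
    simp only at hx s2
    have cs : (c = a + 1 ∧ d = b) ∨ (c = a - 1 ∧ d = b) ∨ (c = a ∧ d = b + 1) ∨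
        (c = a ∧ d = b - 1) := by
      rcases abs_cases (a - c) with e | e <;> rcases abs_cases (b - d) with e' | e' <;> omega
    have i1 := ih.1
    have i2 := ih.2
    have s1 := st.1
    rcases cs with ⟨rfl, rfl⟩ | ⟨rfl, rfl⟩ | ⟨rfl, rfl⟩ | ⟨rfl, rfl⟩
    · have := h (Sum.inr (a + 1, d)) (mem_bd.2 ⟨inr_mem.2 (by simp only; omega), by
        simp [fP, fQ, i1, hy]⟩)
      simp [fP, fQ, i2, s1] at this
    · have := h (Sum.inr (a, d)) (mem_bd.2 ⟨inr_mem.2 (by simp only; omega), by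
        simp [fP, fQ, i1, hy]⟩)
      simp [fP, fQ, i2, s1] at this
    · have := h (Sum.inl (c, b + 1)) (mem_bd.2 ⟨inl_mem.2 (by simp only; omega), by
        simp [fP, fQ, i1, hy]⟩)
      simp [fP, fQ, i2, s1] at this
    · have := h (Sum.inl (c, b)) (mem_bd.2 ⟨inl_mem.2 (by simp only; omega), by
        simp [fP, fQ, i1, hy]⟩)
      simp [fP, fQ, i2, s1] at this

/-- The high-temperature expansion as a sum over admissible sets of faces. -/
theorem QQ_adm {P : Finset Site} {M : ℕ} (hP : P ⊆ fb M) (R : Multiset Site) :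
    2 ^ (box M \ Vx P).card * QQ P R 0 = 2 ^ (box M).card *
      ∑ U ∈ (fb M).powerset, (∏ e ∈ bd M U, sd P e) * tc ^ (bd M U).card * (R.map (ms U)).prod := by
  rw [← QQ_box hP, Zf_box]
  congr 1
  refine sum_congr rfl fun U hU => ?_
  rw [prod_mul_distrib, prod_mul_distrib, prod_cut (mem_powerset.1 hU), prod_const]
  exact (mul_assoc _ _ _).symm.trans (by rw [mul_comm (tc ^ _)]; rfl)

theorem QQ_sum {P : Finset Site} {M : ℕ} (hP : P ⊆ fb M) {τ : Type} {T : Finset τ} {π : τ → Site}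
    (h1 : ∀ t ∈ T, π t ∉ P) (h2 : ∀ v ∉ P, ∃ t ∈ T, Cn P v (π t)) (R : Multiset Site) :
    2 ^ (box M \ Vx P).card * ∑ S ∈ T.powerset, QQ P (R + S.val.map π) 0 =
      2 ^ (box M).card * 2 ^ T.card *
        ∑ U ∈ P.powerset, (R.map (ms U)).prod * tc ^ (bd M U).card := by
  classical
  rw [mul_sum, sum_congr rfl fun S _ => QQ_adm hP (R + S.val.map π), ← mul_sum, sum_comm, mul_assoc,
    mul_sum _ _ (2 ^ T.card)]
  congr 1
  have e : ∀ U : Finset Site, ∑ S ∈ T.powerset, (∏ e ∈ bd M U, sd P e) * tc ^ (bd M U).card *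
      ((R + S.val.map π).map (ms U)).prod = (∏ e ∈ bd M U, sd P e) * tc ^ (bd M U).card *
        (R.map (ms U)).prod * ∏ t ∈ T, (1 + ms U (π t)) := by
    intro U
    rw [Finset.prod_one_add, mul_sum]
    refine sum_congr rfl fun S _ => ?_
    rw [Multiset.map_add, Multiset.prod_add, Multiset.map_map, ← mul_assoc]
    rfl
  simp only [e]
  rw [← sum_subset (powerset_mono.2 hP)]
  · refine sum_congr rfl fun U hU => ?_
    have hU' := mem_powerset.1 hU
    rw [prod_eq_one (f := sd P), prod_congr rfl (g := fun _ => (2 : ℝ)), prod_const]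
    · ring
    · intro t ht
      have : ms U (π t) = 1 := if_neg fun b => h1 t ht (hU' b)
      rw [this]
      norm_num
    · intro e he
      have := (mem_bd.1 he).2
      refine if_pos ?_
      by_cases c : fP e ∈ U
      · exact Or.inl (hU' c)
      · exact Or.inr (hU' (by tauto))
  · intro U hU hU'
    by_cases c : ∀ e ∈ bd M U, fP e ∈ P ∨ fQ e ∈ P
    · obtain ⟨v, v1, v2⟩ := not_subset.1 fun b => hU' (mem_powerset.2 b)
      obtain ⟨t, ht, hc⟩ := h2 v v2
      have : ms U (π t) = -1 := if_pos (mem_of_sides (mem_powerset.1 hU) c v1 v2 hc).1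
      rw [prod_eq_zero ht (by rw [this]; norm_num), mul_zero]
    · push Not at c
      obtain ⟨e, he, c⟩ := c
      rw [prod_eq_zero he (if_neg (not_or.2 c)), zero_mul, zero_mul, zero_mul]

/-- Kramers-Wannier duality. -/
theorem skw : SKW := by
  intro J hJ P τ T π h1 h2 R
  obtain ⟨M, hP⟩ := exists_fb P
  have e1 := QQ_sum hP h1 h2 R
  have e2 := QQ_sum hP h1 h2 0
  simp only [zero_add, Multiset.map_zero, Multiset.prod_zero, one_mul] at e2
  unfold MM
  rw [sP_faces hJ hP, ← sum_div, ← sum_div, div_div_div_cancel_right₀ (QQ_pos P 0).ne',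
    ← mul_div_mul_left (∑ S ∈ T.powerset, _) _
      (show (2 : ℝ) ^ (box M \ Vx P).card ≠ 0 by positivity), e1, e2,
    mul_div_mul_left _ _ (by positivity)]

end Vale.Agent.P144Y.K
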